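import Mathlib

/-!
# P158, row BOXPROB: the probability of one test box

TASK BOXPROB (statement kept exactly; helper lemmas in this file, names
starting `box_`).  Mathlib only.
Sketch.  With `t e = if e ∈ H then U else D` the set is `Set.pi ↑(H ∪ L) t`
(`H`, `L` disjoint, so `t e = D` on `L`); `Measure.infinitePi_pi` (sets measurable by `hU`, `hD`)
gives `∏ e ∈ H ∪ L, G (t e)`; `Finset.prod_union hHL`, `Finset.prod_congr`, `Finset.prod_const`:
`= G U ^ H.card * G D ^ L.card`, and `x ^ m ≤ x ^ k` for `x ≤ 1`, `k ≤ m`
(`pow_le_pow_of_le_one'` / `pow_le_pow_right_of_le_one'`, `prob_le_one`), `mul_le_mul'`.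
-/

open MeasureTheory Set

namespace Vale.Agent.H40.P158

theorem box_prob {ι X : Type} [MeasurableSpace X] (G : Measure X) [IsProbabilityMeasure G]
    (U D : Set X) (hU : MeasurableSet U) (hD : MeasurableSet D) (m : ℕ)
    (H L : Finset ι) (hHL : Disjoint H L) (hH : H.card ≤ m) (hL : L.card ≤ m + 2) :
    G U ^ m * G D ^ (m + 2) ≤
      Measure.infinitePi (fun _ : ι => G) {w | (∀ e ∈ H, w e ∈ U) ∧ (∀ e ∈ L, w e ∈ D)} := by
  classical
  obtain ⟨t, ht⟩ : ∃ t : ι → Set X, ∀ e, t e = if e ∈ H then U else D :=
    ⟨fun e => if e ∈ H then U else D, fun e => rfl⟩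
  have hset : {w : ι → X | (∀ e ∈ H, w e ∈ U) ∧ (∀ e ∈ L, w e ∈ D)}
      = Set.pi (↑(H ∪ L)) t := by
    ext w
    simp only [Set.mem_setOf_eq, Set.mem_pi, Finset.mem_coe, Finset.mem_union]
    constructor
    · rintro ⟨h1, h2⟩ e he
      by_cases heH : e ∈ H
      · rw [ht e, if_pos heH]
        exact h1 e heH
      · have heL : e ∈ L := he.resolve_left heH
        rw [ht e, if_neg heH]
        exact h2 e heL
    · intro h
      constructor
      · intro e he
        have h3 := h e (Or.inl he)
        rw [ht e, if_pos he] at h3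
        exact h3
      · intro e he
        have heH : e ∉ H := fun h' => (Finset.disjoint_left.mp hHL h') he
        have h3 := h e (Or.inr he)
        rw [ht e, if_neg heH] at h3
        exact h3
  rw [hset, Measure.infinitePi_pi]
  · rw [Finset.prod_union hHL]
    have h1 : ∏ e ∈ H, G (t e) = G U ^ H.card := by
      rw [← Finset.prod_const]
      apply Finset.prod_congr rfl
      intro e he
      rw [ht e, if_pos he]
    have h2 : ∏ e ∈ L, G (t e) = G D ^ L.card := by
      rw [← Finset.prod_const]
      apply Finset.prod_congr rfl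
      intro e he
      have heH : e ∉ H := fun h' => (Finset.disjoint_left.mp hHL h') he
      rw [ht e, if_neg heH]
    rw [h1, h2]
    exact mul_le_mul' (pow_le_pow_right_of_le_one' prob_le_one hH)
      (pow_le_pow_right_of_le_one' prob_le_one hL)
  · intro e _
    by_cases heH : e ∈ H
    · rw [ht e, if_pos heH]
      exact hU
    · rw [ht e, if_neg heH]
      exact hD

end Vale.Agent.H40.P158
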