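import Mathlib

/-!
# P158, row INDEP: boxes over pairwise disjoint finite coordinate blocks are independent

TASK INDEP (proved; the statement is exactly the one of the stub; helper lemmas in this file, names
starting `ind_`).  Mathlib only.
For the product law `infinitePi (fun _ : ι => G)` (`G` a probability measure on any measurable
space `X`), pairwise disjoint finite coordinate sets `F n` and measurable sets `B n i` of `X`, the probability that none of the first `N`
boxes `{w | ∀ i ∈ F n, w i ∈ B n i}` occurs is the product of the `1 - P (box n)`.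
Sketch (induction on `N`; `N = 0`: the set is `univ`, measure `1`, empty product).
Step: `{w | ∀ n < N + 1, ¬ box n w} = A ∩ (box N)ᶜ` with `A = {w | ∀ n < N, ¬ box n w}`.
Let `S = (Finset.range N).biUnion F`, `T = F N` (disjoint by `hF`).  The coordinate maps are
independent: `ProbabilityTheory.iIndepFun_infinitePi (X := fun _ x => x) (fun _ => measurable_id)`,
so `iIndepFun.indepFun_finset S T hST _ (fun i => measurable_pi_apply i)` gives
`IndepFun (fun w (i : S) => w i) (fun w (i : T) => w i)`.  `A` is the preimage under the first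
map of the measurable set `{x : S → X | ∀ n < N, ∃ i, ∃ h : i ∈ F n, x ⟨i, _⟩ ∉ B n i}`
(measurable: finite intersections / unions of coordinate preimages; `MeasurableSet.iInter`,
`measurableSet_pi` or `Set.Finite.measurableSet_biInter`), and `(box N)ᶜ` is the preimage under the
second map of the complement of the measurable box `{y : T → X | ∀ i : T, y i ∈ B N i}`.
`IndepFun.measure_inter_preimage_eq_mul` then gives `P (A ∩ (box N)ᶜ) = P A * P ((box N)ᶜ)`,
`P ((box N)ᶜ) = 1 - P (box N)` (`prob_compl_eq_one_sub`, the box is measurable), and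
`Finset.prod_range_succ`.
-/

open MeasureTheory ProbabilityTheory Set

namespace Vale.Agent.H40.P158

theorem no_box_prob {ι X : Type} [MeasurableSpace X] (G : Measure X) [IsProbabilityMeasure G]
    (F : ℕ → Finset ι) (hF : ∀ n n' : ℕ, n ≠ n' → Disjoint (F n) (F n'))
    (B : ℕ → ι → Set X) (hB : ∀ n i, MeasurableSet (B n i)) (N : ℕ) :
    Measure.infinitePi (fun _ : ι => G) {w | ∀ n < N, ¬ ∀ i ∈ F n, w i ∈ B n i}
      = ∏ n ∈ Finset.range N,
          (1 - Measure.infinitePi (fun _ : ι => G) {w | ∀ i ∈ F n, w i ∈ B n i}) := by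
  classical
  have hindep : iIndepFun (fun (i : ι) (w : ι → X) => w i)
      (Measure.infinitePi (fun _ : ι => G)) :=
    iIndepFun_infinitePi (P := fun _ : ι => G) (X := fun _ x => x) (fun _ => measurable_id)
  induction N with
  | zero => simp
  | succ N ih =>
    rw [Finset.prod_range_succ, ← ih]
    have hmem : ∀ (n : Fin N) (i : {i // i ∈ F n}), i.1 ∈ (Finset.range N).biUnion F :=
      fun n i => Finset.mem_biUnion.mpr ⟨n, Finset.mem_range.mpr n.2, i.2⟩
    have hST : Disjoint ((Finset.range N).biUnion F) (F N) := by
      rw [Finset.disjoint_biUnion_left]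
      intro n hn
      exact hF n N (ne_of_lt (Finset.mem_range.mp hn))
    have hi := hindep.indepFun_finset ((Finset.range N).biUnion F) (F N) hST
      (fun i => measurable_pi_apply i)
    let A' : Set ({i // i ∈ (Finset.range N).biUnion F} → X) :=
      ⋂ n : Fin N, (⋂ i : {i // i ∈ F n}, (fun x => x ⟨i.1, hmem n i⟩) ⁻¹' (B n i.1))ᶜ
    let B' : Set ({i // i ∈ F N} → X) := ⋂ i : {i // i ∈ F N}, (fun y => y i) ⁻¹' (B N i.1)
    have hA' : MeasurableSet A' :=
      MeasurableSet.iInter fun n =>
        (MeasurableSet.iInter fun i => (measurable_pi_apply _) (hB n i.1)).compl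
    have hB' : MeasurableSet B' :=
      MeasurableSet.iInter fun i => (measurable_pi_apply _) (hB N i.1)
    have e2 : {w : ι → X | ∀ n < N, ¬ ∀ i ∈ F n, w i ∈ B n i}
        = (fun (w : ι → X) (i : {i // i ∈ (Finset.range N).biUnion F}) => w i) ⁻¹' A' := by
      ext w
      simp only [A', mem_ofPred_eq, mem_preimage, mem_iInter, mem_compl_iff, Subtype.forall]
      constructor
      · intro h n
        exact h n.1 n.2
      · intro h n hn
        exact h ⟨n, hn⟩
    have e3 : {w : ι → X | ∀ i ∈ F N, w i ∈ B N i}
        = (fun (w : ι → X) (i : {i // i ∈ F N}) => w i) ⁻¹' B' := by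
      ext w
      simp only [B', mem_ofPred_eq, mem_preimage, mem_iInter, Subtype.forall]
    have e1 : {w : ι → X | ∀ n < N + 1, ¬ ∀ i ∈ F n, w i ∈ B n i}
        = (fun (w : ι → X) (i : {i // i ∈ (Finset.range N).biUnion F}) => w i) ⁻¹' A'
          ∩ (fun (w : ι → X) (i : {i // i ∈ F N}) => w i) ⁻¹' B'ᶜ := by
      rw [← e2, preimage_compl, ← e3]
      ext w
      simp only [mem_ofPred_eq, mem_inter_iff, mem_compl_iff]
      constructor
      · intro h
        exact ⟨fun n hn => h n (by omega), h N (by omega)⟩
      · rintro ⟨h1, h2⟩ n hn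
        rcases Nat.lt_succ_iff_lt_or_eq.mp hn with h | h
        · exact h1 n h
        · subst h
          exact h2
    have hbox : MeasurableSet {w : ι → X | ∀ i ∈ F N, w i ∈ B N i} := by
      rw [e3]
      exact (measurable_pi_lambda _ fun i => measurable_pi_apply _) hB'
    rw [e1, hi.measure_inter_preimage_eq_mul _ _ hA' hB'.compl, ← e2, preimage_compl, ← e3,
      prob_compl_eq_one_sub hbox]

end Vale.Agent.H40.P158
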