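import Mathlib

/-!
# P158, row SELECT: an injective sequence of lattice points has a far-apart subsequence

TASK SELECT (PROVED by helper54; statement kept exactly; helper lemmas in this file, names
starting `sel_`).  Mathlib only.
Sketch.  `exists_seq_of_forall_finset_exists'` (Mathlib/Data/Fintype/Basic.lean) with `P = True`
and the symmetric relation `r k k' := R < |(v k).1 - (v k').1| ∨ R < |(v k).2 - (v k').2|`
(`Std.Symm` instance: `abs_sub_comm`): given a finite `s : Finset ℤ`, the set of `k` with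
`¬ r x k` for some `x ∈ s` is contained in the preimage under `v` of the finite set
`⋃ x ∈ s, Icc ((v x).1 - R) ((v x).1 + R) ×ˢ Icc ((v x).2 - R) ((v x).2 + R)`, which is finite
because `v` is injective (`Set.Finite.preimage hinj.injOn`); `ℤ` is infinite
(`Set.Infinite.exists_notMem_finite` / `Set.infinite_univ`, or `Infinite.exists_notMem_finset`), so
some `k` is outside it.  Then `Pairwise (r on κ)` is the claim.
-/

namespace Vale.Agent.H40.P158

theorem sel_step (v : ℤ → ℤ × ℤ) (hinj : Function.Injective v) (R : ℤ) (s : Finset ℤ) :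
    ∃ y : ℤ, ∀ x ∈ s,
      R < |(v x).1 - (v y).1| ∨ R < |(v x).2 - (v y).2| := by
  classical
  set B : Finset (ℤ × ℤ) := s.biUnion (fun x =>
    Finset.Icc ((v x).1 - R) ((v x).1 + R) ×ˢ Finset.Icc ((v x).2 - R) ((v x).2 + R)) with hB
  have hfin : (v ⁻¹' (B : Set (ℤ × ℤ))).Finite :=
    Set.Finite.preimage hinj.injOn B.finite_toSet
  obtain ⟨y, hy⟩ := hfin.exists_notMem
  refine ⟨y, fun x hx => ?_⟩
  by_contra hcon
  rw [not_or, not_lt, not_lt] at hcon
  obtain ⟨h1, h2⟩ := hcon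
  apply hy
  rw [Set.mem_preimage, Finset.mem_coe, hB, Finset.mem_biUnion]
  refine ⟨x, hx, ?_⟩
  rw [Finset.mem_product, Finset.mem_Icc, Finset.mem_Icc]
  have h1' := abs_le.mp h1
  have h2' := abs_le.mp h2
  refine ⟨⟨?_, ?_⟩, ⟨?_, ?_⟩⟩ <;> linarith [h1'.1, h1'.2, h2'.1, h2'.2]

theorem select (v : ℤ → ℤ × ℤ) (hinj : Function.Injective v) (R : ℤ) :
    ∃ κ : ℕ → ℤ, ∀ n n' : ℕ, n ≠ n' →
      R < |(v (κ n)).1 - (v (κ n')).1| ∨ R < |(v (κ n)).2 - (v (κ n')).2| := by
  obtain ⟨κ, -, hκ⟩ := exists_seq_of_forall_finset_exists (fun _ : ℤ => True)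
    (fun x y : ℤ => R < |(v x).1 - (v y).1| ∨ R < |(v x).2 - (v y).2|)
    (fun s _ => by
      obtain ⟨y, hy⟩ := sel_step v hinj R s
      exact ⟨y, trivial, hy⟩)
  refine ⟨κ, fun n n' hne => ?_⟩
  rcases lt_or_gt_of_ne hne with h | h
  · exact hκ n n' h
  · have h3 := hκ n' n h
    rw [abs_sub_comm (v (κ n')).1, abs_sub_comm (v (κ n')).2] at h3
    exact h3

end Vale.Agent.H40.P158
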