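import Mathlib

/-!
# P158 (fixed paths): internal definitions

These are INTERNAL notions of the proof (the statement-level definitions of the hand-in are the
shared ones of the P158 folder).  Vertices are the points of `ℤ × ℤ`; `w : Sym2 (ℤ × ℤ) → ℝ` is a
real weight on every unordered pair of vertices (only nearest-neighbour pairs are ever used).
`Adj`: nearest neighbours.  `IsGeoR w v`: the variational form of `v is a bigeodesic for w`.
`Near c r e`: both ends of the edge `e` are at sup-distance at most `r` from `c`.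
`IsTest a b m v k H L`: the disjoint finite edge sets `H` (at most `m` edges) and `L` (at most
`m + 2` edges), all near `v k`, form a local test: no weight configuration that is at least `b` on
`H` and at most `a` on `L` has `v` as a bigeodesic.
-/

namespace Vale.Agent.H40.P158

/-- Nearest neighbours in the square lattice. -/
def Adj (x y : ℤ × ℤ) : Prop := |x.1 - y.1| + |x.2 - y.2| = 1

/-- `v` is a bigeodesic for the real weights `w`, in variational form: a doubly infinite sequence
of pairwise distinct vertices, consecutive ones adjacent, such that for all `i < j` the weight of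
the segment from `v i` to `v j` is at most the weight of every finite nearest-neighbour chain
`π 0, …, π n` from `v i` to `v j`. -/
def IsGeoR (w : Sym2 (ℤ × ℤ) → ℝ) (v : ℤ → ℤ × ℤ) : Prop :=
  Function.Injective v ∧ (∀ i : ℤ, Adj (v i) (v (i + 1))) ∧
    ∀ i j : ℤ, i < j → ∀ (n : ℕ) (π : ℕ → ℤ × ℤ), π 0 = v i → π n = v j →
      (∀ l : ℕ, l < n → Adj (π l) (π (l + 1))) →
      ∑ k ∈ Finset.Ico i j, w s(v k, v (k + 1)) ≤ ∑ l ∈ Finset.range n, w s(π l, π (l + 1))

/-- Both ends of the edge `e` are at sup-distance at most `r` from `c`. -/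
def Near (c : ℤ × ℤ) (r : ℤ) (e : Sym2 (ℤ × ℤ)) : Prop :=
  ∀ z ∈ e, |z.1 - c.1| ≤ r ∧ |z.2 - c.2| ≤ r

/-- A local test at the index `k` of the path `v`. -/
def IsTest (a b : ℝ) (m : ℕ) (v : ℤ → ℤ × ℤ) (k : ℤ) (H L : Finset (Sym2 (ℤ × ℤ))) : Prop :=
  Disjoint H L ∧ H.card ≤ m ∧ L.card ≤ m + 2 ∧ (∀ e ∈ H ∪ L, Near (v k) (m + 1) e) ∧
    ∀ w : Sym2 (ℤ × ℤ) → ℝ, IsGeoR w v → ¬ ((∀ e ∈ H, b ≤ w e) ∧ (∀ e ∈ L, w e ≤ a))

end Vale.Agent.H40.P158
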