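import Mathlib
import Vale.Agent.H40.P158.Defs

/-!
# P158, row WALK: elementary facts about nearest-neighbour sequences

TASK WALK (proved; the statements are exactly the ones of the stub; helper lemmas in this file, names
starting `walk_`).
`adj_symm`, `adj_add` (translation of a step), `adj_unit` (the step of an adjacent pair is one of
the four unit vectors), `walk_near` (after `i` steps the walk is at sup-distance at most `i`:
induction on `i`, each step changes each coordinate by at most one: unfold `Adj`, `abs` cases /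
`abs_le`, `omega`; note `v (k + ((i + 1 : ℕ) : ℤ)) = v (k + i + 1)` by `push_cast; ring_nf`),
`perp_of_ne` (two consecutive steps of an injective walk that differ are perpendicular: the step
`d = v (j+1) - v j` and `d' = v (j+2) - v (j+1)` are unit vectors, `d' ≠ d` by hypothesis and
`d' ≠ -d` since otherwise `v (j+2) = v j`, against injectivity (`j + 2 ≠ j`); the statement lists
the four remaining sign cases).
-/

namespace Vale.Agent.H40.P158

/-- two integers whose absolute values add up to one -/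
theorem walk_abs_one (a b : ℤ) (h : |a| + |b| = 1) :
    (a = 1 ∧ b = 0) ∨ (a = -1 ∧ b = 0) ∨ (a = 0 ∧ b = 1) ∨ (a = 0 ∧ b = -1) := by
  rcases abs_cases a with ⟨h1, h1'⟩ | ⟨h1, h1'⟩ <;>
    rcases abs_cases b with ⟨h2, h2'⟩ | ⟨h2, h2'⟩ <;> rw [h1, h2] at h <;> omega

theorem adj_symm {x y : ℤ × ℤ} (h : Adj x y) : Adj y x := by
  unfold Adj at *
  rw [abs_sub_comm y.1 x.1, abs_sub_comm y.2 x.2]
  exact h

theorem adj_add (x d : ℤ × ℤ) (h : |d.1| + |d.2| = 1) : Adj x (x + d) := by
  unfold Adj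
  have h1 : x.1 - (x + d).1 = -d.1 := by rw [Prod.fst_add]; ring
  have h2 : x.2 - (x + d).2 = -d.2 := by rw [Prod.snd_add]; ring
  rw [h1, h2, abs_neg, abs_neg]
  exact h

theorem adj_unit {x y : ℤ × ℤ} (h : Adj x y) :
    y - x = (1, 0) ∨ y - x = (-1, 0) ∨ y - x = (0, 1) ∨ y - x = (0, -1) := by
  unfold Adj at h
  obtain ⟨x1, x2⟩ := x
  obtain ⟨y1, y2⟩ := y
  have hc := walk_abs_one _ _ h
  simp only [Prod.mk_sub_mk, Prod.mk.injEq]
  simp only at hc
  omega

theorem walk_near (v : ℤ → ℤ × ℤ) (hadj : ∀ i : ℤ, Adj (v i) (v (i + 1))) (k : ℤ) (i : ℕ) :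
    |(v (k + i)).1 - (v k).1| ≤ i ∧ |(v (k + i)).2 - (v k).2| ≤ i := by
  induction i with
  | zero => simp
  | succ i ih =>
    have e : k + ((i + 1 : ℕ) : ℤ) = k + i + 1 := by push_cast; ring
    rw [e]
    have ha := hadj (k + i)
    unfold Adj at ha
    obtain ⟨ih1, ih2⟩ := ih
    rw [abs_le] at ih1 ih2
    have hc := walk_abs_one _ _ ha
    push_cast
    constructor
    · rw [abs_le]; omega
    · rw [abs_le]; omega

theorem perp_of_ne (v : ℤ → ℤ × ℤ) (hinj : Function.Injective v)
    (hadj : ∀ i : ℤ, Adj (v i) (v (i + 1))) (j : ℤ)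
    (hj : v (j + 1) - v j ≠ v (j + 2) - v (j + 1)) :
    (|(v (j + 1) - v j).1| = 1 ∧ (v (j + 1) - v j).2 = 0 ∧
        (v (j + 2) - v (j + 1)).1 = 0 ∧ |(v (j + 2) - v (j + 1)).2| = 1) ∨
      ((v (j + 1) - v j).1 = 0 ∧ |(v (j + 1) - v j).2| = 1 ∧
        |(v (j + 2) - v (j + 1)).1| = 1 ∧ (v (j + 2) - v (j + 1)).2 = 0) := by
  have h1 := adj_unit (hadj j)
  have h2 := adj_unit (hadj (j + 1))
  have e : j + 1 + 1 = j + 2 := by ring
  rw [e] at h2
  have hne : v (j + 2) ≠ v j := fun h => by
    have := hinj h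
    omega
  have hsum : (v (j + 1) - v j) + (v (j + 2) - v (j + 1)) ≠ 0 := by
    intro h
    apply hne
    have h0 : v (j + 2) - v j = 0 := by rw [← h]; abel
    exact sub_eq_zero.mp h0
  generalize v (j + 1) - v j = d at *
  generalize v (j + 2) - v (j + 1) = d' at *
  rcases h1 with rfl | rfl | rfl | rfl <;> rcases h2 with rfl | rfl | rfl | rfl <;>
    simp at hj hsum ⊢

end Vale.Agent.H40.P158
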