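import Mathlib
import Vale.Agent.H40.P158.Corner
import Vale.Agent.H40.P158.Straight

/-!
# P158, row WINDOW: every window of `m` steps carries a local test

TASK WINDOW (proved; the statement is exactly the one of the stub; helper lemmas in this file, names
starting `win_`).  Black boxes (use as stated): `corner_test` (Corner.lean), `straight_test`
(Straight.lean).
Sketch.  If `∀ i : ℕ, i < m → v (k + i + 1) - v (k + i) = v (k + 1) - v k`: `straight_test`.
Otherwise let `i` be the least natural number `< m` with `v (k + i + 1) - v (k + i) ≠ v (k + 1) - v k`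
(`Nat.find`); `i ≠ 0` (for `i = 0` the two sides agree), and the step number `i - 1` equals
`v (k + 1) - v k` by minimality; apply `corner_test` with `j = k + (i - 1)`:
`v (j + 1) - v j = v (k + 1) - v k ≠ v (j + 2) - v (j + 1)`, `k ≤ j`, `j + 2 = k + i + 1 ≤ k + m`.
-/

namespace Vale.Agent.H40.P158

theorem window (a b : ℝ) (hab : a < b) (m : ℕ) (hm2 : 2 ≤ m) (hm : ((m : ℝ) + 2) * a < m * b)
    (v : ℤ → ℤ × ℤ) (hinj : Function.Injective v) (hadj : ∀ i : ℤ, Adj (v i) (v (i + 1)))
    (k : ℤ) : ∃ H L : Finset (Sym2 (ℤ × ℤ)), IsTest a b m v k H L := by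
  by_cases hst : ∀ i : ℕ, i < m → v (k + i + 1) - v (k + i) = v (k + 1) - v k
  · exact straight_test a b m (by omega) hm v hinj hadj k hst
  · have hex : ∃ i : ℕ, i < m ∧ v (k + i + 1) - v (k + i) ≠ v (k + 1) - v k := by
      by_contra hno
      apply hst
      intro i him
      by_contra hne
      exact hno ⟨i, him, hne⟩
    classical
    obtain ⟨him, hine⟩ := Nat.find_spec hex
    have hmin : ∀ l : ℕ, l < Nat.find hex →
        ¬ (l < m ∧ v (k + l + 1) - v (k + l) ≠ v (k + 1) - v k) :=
      fun l hl => Nat.find_min hex hl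
    generalize Nat.find hex = i at him hine hmin
    have hi0 : i ≠ 0 := by
      intro h0
      apply hine
      rw [h0]
      simp
    have hprev : v (k + ((i - 1 : ℕ) : ℤ) + 1) - v (k + ((i - 1 : ℕ) : ℤ)) = v (k + 1) - v k := by
      have h1 := hmin (i - 1) (by omega)
      by_contra hne
      exact h1 ⟨by omega, hne⟩
    have hj2 : k + ((i - 1 : ℕ) : ℤ) + 2 = k + (i : ℤ) + 1 := by omega
    have hj1 : k + ((i - 1 : ℕ) : ℤ) + 1 = k + (i : ℤ) := by omega
    refine corner_test a b hab m v hinj hadj k (k + ((i - 1 : ℕ) : ℤ)) (by omega) (by omega) ?_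
    rw [hprev, hj2, hj1]
    exact fun h => hine h.symm

end Vale.Agent.H40.P158
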