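import Mathlib
import Vale.Agent.H40.P158.Window
import Vale.Agent.H40.P158.Select
import Vale.Agent.H40.P158.BoxProb
import Vale.Agent.H40.P158.Indep

/-!
# P158 (fixed paths): the abstract core (assembly of the rows)

`core`: let `G` be a probability law on a measurable space `X` and `val : X → ℝ` measurable with
`0 < G {val ≤ a}`, `0 < G {b ≤ val}`, `a < b`.  Then for every fixed `v` the set of
configurations `w : Sym2 (ℤ × ℤ) → X` for which `v` is a bigeodesic (in the variational form
`IsGeoR`) of the real weights `val ∘ w` is a null set of the product law.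
-/

open MeasureTheory Set Filter

namespace Vale.Agent.H40.P158

/-- Two edges near two far-apart centres are different. -/
theorem fin_far (c c' : ℤ × ℤ) (r : ℤ) (e : Sym2 (ℤ × ℤ)) (h : Near c r e) (h' : Near c' r e) :
    |c.1 - c'.1| ≤ 2 * r ∧ |c.2 - c'.2| ≤ 2 * r := by
  induction e using Sym2.ind with
  | _ x y =>
    have h1 := h x (Sym2.mem_mk_left x y)
    have h2 := h' x (Sym2.mem_mk_left x y)
    constructor
    · have := abs_le.mp h1.1
      have := abs_le.mp h2.1
      rw [abs_le]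
      constructor <;> linarith
    · have := abs_le.mp h1.2
      have := abs_le.mp h2.2
      rw [abs_le]
      constructor <;> linarith

theorem core {X : Type} [MeasurableSpace X] (G : Measure X) [IsProbabilityMeasure G]
    (val : X → ℝ) (hval : Measurable val) (a b : ℝ) (hab : a < b)
    (ha : 0 < G {x | val x ≤ a}) (hb : 0 < G {x | b ≤ val x}) (v : ℤ → ℤ × ℤ) :
    Measure.infinitePi (fun _ : Sym2 (ℤ × ℤ) => G) {w | IsGeoR (fun e => val (w e)) v} = 0 := by
  by_cases hp : Function.Injective v ∧ ∀ i : ℤ, Adj (v i) (v (i + 1))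
  swap
  · have hemp : {w : Sym2 (ℤ × ℤ) → X | IsGeoR (fun e => val (w e)) v} = ∅ := by
      ext w
      simp only [mem_ofPred_eq, mem_empty_iff_false, iff_false]
      intro hw
      exact hp ⟨hw.1, hw.2.1⟩
    rw [hemp, measure_empty]
  obtain ⟨hinj, hadj⟩ := hp
  -- the window length
  obtain ⟨m0, hm0⟩ := exists_nat_gt (2 * a / (b - a))
  have hba : 0 < b - a := sub_pos.mpr hab
  have hm0' : 2 * a < m0 * (b - a) := (div_lt_iff₀ hba).mp hm0
  set m : ℕ := m0 + 2 with hmdef
  have hm2 : 2 ≤ m := by omega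
  have hm : ((m : ℝ) + 2) * a < m * b := by
    have h1 : (m : ℝ) = m0 + 2 := by rw [hmdef]; push_cast; ring
    rw [h1]
    nlinarith
  -- the tests
  choose H L hT using fun k : ℤ => window a b hab m hm2 hm v hinj hadj k
  obtain ⟨κ, hκ⟩ := select v hinj (2 * ((m : ℤ) + 1))
  set F : ℕ → Finset (Sym2 (ℤ × ℤ)) := fun n => H (κ n) ∪ L (κ n) with hFdef
  have hF : ∀ n n' : ℕ, n ≠ n' → Disjoint (F n) (F n') := by
    intro n n' hnn
    rw [Finset.disjoint_left]
    intro e he he'
    have h1 := (hT (κ n)).2.2.2.1 e he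
    have h2 := (hT (κ n')).2.2.2.1 e he'
    have h3 := fin_far _ _ _ e h1 h2
    rcases hκ n n' hnn with h4 | h4
    · exact absurd h3.1 (not_le.mpr h4)
    · exact absurd h3.2 (not_le.mpr h4)
  classical
  set B : ℕ → Sym2 (ℤ × ℤ) → Set X :=
    fun n e => if e ∈ H (κ n) then {x | b ≤ val x} else {x | val x ≤ a} with hBdef
  have hB : ∀ n e, MeasurableSet (B n e) := by
    intro n e
    simp only [hBdef]
    split_ifs
    · exact measurableSet_le measurable_const hval
    · exact measurableSet_le hval measurable_const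
  have hbox : ∀ n : ℕ, {w : Sym2 (ℤ × ℤ) → X | ∀ e ∈ F n, w e ∈ B n e} =
      {w | (∀ e ∈ H (κ n), w e ∈ {x | b ≤ val x}) ∧ (∀ e ∈ L (κ n), w e ∈ {x | val x ≤ a})} := by
    intro n
    ext w
    simp only [mem_ofPred_eq, hFdef, hBdef, Finset.mem_union]
    constructor
    · intro h
      refine ⟨fun e he => ?_, fun e he => ?_⟩
      · have := h e (Or.inl he)
        rw [if_pos he] at this
        exact this
      · have hne : e ∉ H (κ n) := fun he' => Finset.disjoint_left.mp (hT (κ n)).1 he' he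
        have := h e (Or.inr he)
        rw [if_neg hne] at this
        exact this
    · rintro ⟨h1, h2⟩ e he
      by_cases heH : e ∈ H (κ n)
      · rw [if_pos heH]; exact h1 e heH
      · rw [if_neg heH]
        rcases he with he | he
        · exact absurd he heH
        · exact h2 e he
  set μ := Measure.infinitePi (fun _ : Sym2 (ℤ × ℤ) => G) with hμ
  set δ : ENNReal := G {x | b ≤ val x} ^ m * G {x | val x ≤ a} ^ (m + 2) with hδ
  have hδpos : δ ≠ 0 := by
    rw [hδ]
    exact mul_ne_zero (pow_ne_zero _ hb.ne') (pow_ne_zero _ ha.ne')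
  have hδbox : ∀ n : ℕ, δ ≤ μ {w | ∀ e ∈ F n, w e ∈ B n e} := by
    intro n
    rw [hbox n]
    exact box_prob G {x | b ≤ val x} {x | val x ≤ a} (measurableSet_le measurable_const hval)
      (measurableSet_le hval measurable_const) m (H (κ n)) (L (κ n)) (hT (κ n)).1 (hT (κ n)).2.1
      (hT (κ n)).2.2.1
  have hsub : ∀ N : ℕ, {w : Sym2 (ℤ × ℤ) → X | IsGeoR (fun e => val (w e)) v} ⊆
      {w | ∀ n < N, ¬ ∀ e ∈ F n, w e ∈ B n e} := by
    intro N w hw n _ hall
    have hw' : w ∈ {w : Sym2 (ℤ × ℤ) → X | ∀ e ∈ F n, w e ∈ B n e} := hall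
    rw [hbox n] at hw'
    exact (hT (κ n)).2.2.2.2 (fun e => val (w e)) hw hw'
  have hle : ∀ N : ℕ, μ {w | IsGeoR (fun e => val (w e)) v} ≤ (1 - δ) ^ N := by
    intro N
    calc μ {w | IsGeoR (fun e => val (w e)) v} ≤ μ {w | ∀ n < N, ¬ ∀ e ∈ F n, w e ∈ B n e} :=
          measure_mono (hsub N)
      _ = ∏ n ∈ Finset.range N, (1 - μ {w | ∀ e ∈ F n, w e ∈ B n e}) :=
          no_box_prob G F hF B hB N
      _ ≤ ∏ _n ∈ Finset.range N, (1 - δ) :=
          Finset.prod_le_prod' fun n _ => tsub_le_tsub_left (hδbox n) 1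
      _ = (1 - δ) ^ N := by rw [Finset.prod_const, Finset.card_range]
  have hlt : (1 : ENNReal) - δ < 1 := ENNReal.sub_lt_self ENNReal.one_ne_top one_ne_zero hδpos
  have hlim : Tendsto (fun N : ℕ => ((1 : ENNReal) - δ) ^ N) atTop (nhds 0) :=
    ENNReal.tendsto_pow_atTop_nhds_zero_of_lt_one hlt
  exact le_antisymm (ge_of_tendsto' hlim hle) bot_le

end Vale.Agent.H40.P158
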