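import Mathlib
import Vale.Agent.H43.P158.Defs
import Vale.Agent.H43.P158.Law
import Vale.Agent.H40.P158.Core

/-!
# P158 (fixed paths): the final statement

`chain_walk`: a finite nearest-neighbour chain `π 0, …, π n` is a walk of `Z2` whose weight is
the sum of the weights of its steps.  `bridge`: a bigeodesic in the sense of the shared
definition file (`Vale.Agent.H43.P158.IsBigeodesic`, weights in `ℝ≥0`, passage time as an infimum
over walks) is a bigeodesic in the internal variational form `IsGeoR` for the real weights.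
`final_statement`: for a law `G` on `ℝ≥0` that is not a point mass and a countable family `Γ` of
paths, almost surely no member of `Γ` is a bigeodesic.
-/

open MeasureTheory Set Filter
open scoped NNReal

namespace Vale.Agent.H40.P158

open Vale.Agent.H43.P158

/-- A finite nearest-neighbour chain is a walk whose weight is the sum over its steps. -/
theorem chain_walk (ω : Sym2 (ℤ × ℤ) → ℝ≥0) (n : ℕ) :
    ∀ π : ℕ → ℤ × ℤ, (∀ l : ℕ, l < n → Z2.Adj (π l) (π (l + 1))) →
      ∃ p : Z2.Walk (π 0) (π n), wt ω p = ∑ l ∈ Finset.range n, ω s(π l, π (l + 1)) := by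
  induction n with
  | zero =>
    intro π _
    exact ⟨SimpleGraph.Walk.nil, by simp [wt]⟩
  | succ n ih =>
    intro π hπ
    obtain ⟨p, hp⟩ := ih (fun l => π (l + 1)) (fun l hl => hπ (l + 1) (by omega))
    refine ⟨SimpleGraph.Walk.cons (hπ 0 (by omega)) p, ?_⟩
    rw [Finset.sum_range_succ', ← hp]
    simp [wt, add_comm]

theorem bridge (ω : Sym2 (ℤ × ℤ) → ℝ≥0) (v : ℤ → ℤ × ℤ) (h : IsBigeodesic ω v) :
    IsGeoR (fun e => ((ω e : ℝ≥0) : ℝ)) v := by
  obtain ⟨hinj, hadj, hgeo⟩ := h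
  refine ⟨hinj, fun i => hadj i, ?_⟩
  intro i j hij n π h0 hn hπ
  obtain ⟨p, hp⟩ := chain_walk ω n π (fun l hl => hπ l hl)
  have h1 : T ω (v i) (v j) ≤ wt ω (p.copy h0 hn) :=
    ciInf_le (OrderBot.bddBelow _) (p.copy h0 hn)
  have h2 : wt ω (p.copy h0 hn) = wt ω p := by
    simp [wt]
  have h3 : ∑ k ∈ Finset.Ico i j, ω s(v k, v (k + 1)) ≤
      ∑ l ∈ Finset.range n, ω s(π l, π (l + 1)) := by
    rw [hgeo i j hij, ← hp, ← h2]
    exact h1
  have h4 := NNReal.coe_le_coe.mpr h3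
  rw [NNReal.coe_sum, NNReal.coe_sum] at h4
  exact h4

theorem final_statement (G : Measure ℝ≥0) [IsProbabilityMeasure G] (hG : ∀ c, G {c} < 1)
    (Γ : Set (ℤ → ℤ × ℤ)) (hΓ : Γ.Countable) :
    ∀ᵐ ω ∂(Measure.infinitePi (fun _ : Sym2 (ℤ × ℤ) => G)), ∀ v ∈ Γ, ¬ IsBigeodesic ω v := by
  obtain ⟨lo, hi, hlohi, hlo, hhi⟩ := exists_lo_hi G hG
  have hfix : ∀ v : ℤ → ℤ × ℤ,
      Measure.infinitePi (fun _ : Sym2 (ℤ × ℤ) => G) {ω | IsBigeodesic ω v} = 0 := by
    intro v
    have hcore := core G (fun x : ℝ≥0 => (x : ℝ)) NNReal.continuous_coe.measurable (lo : ℝ) (hi : ℝ)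
      (NNReal.coe_lt_coe.mpr hlohi)
      (by
        have : {x : ℝ≥0 | (x : ℝ) ≤ (lo : ℝ)} = Iic lo := by
          ext x; simp
        rw [this]; exact hlo)
      (by
        have : {x : ℝ≥0 | (hi : ℝ) ≤ (x : ℝ)} = Ici hi := by
          ext x; simp
        rw [this]; exact hhi) v
    exact measure_mono_null (fun ω hω => bridge ω v hω) hcore
  rw [ae_iff]
  have hset : {ω : Sym2 (ℤ × ℤ) → ℝ≥0 | ¬ ∀ v ∈ Γ, ¬ IsBigeodesic ω v} =
      ⋃ v ∈ Γ, {ω | IsBigeodesic ω v} := by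
    ext ω
    simp
  rw [hset]
  exact (measure_biUnion_null_iff hΓ).mpr fun v _ => hfix v

end Vale.Agent.H40.P158
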